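import Vale.Agent.P079.Full.Main

/-!
P079: every reflexive Banach space has the fixed point property for nonexpansive maps.
-/

namespace Vale.Agent.Results.P079.KirkReflexiveFPP

/-- In a reflexive real Banach space every nonexpansive self map of a nonempty norm closed bounded
convex set has a fixed point. -/
theorem result {X : Type*} [NormedAddCommGroup X] [NormedSpace ℝ X] [CompleteSpace X]
    (hX : Function.Surjective (NormedSpace.inclusionInDoubleDual ℝ X))
    (C : Set X) (hne : C.Nonempty) (hcl : IsClosed C) (hbd : Bornology.IsBounded C)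
    (hcv : Convex ℝ C) (T : X → X) (hT : Set.MapsTo T C C)
    (hlip : ∀ a ∈ C, ∀ b ∈ C, ‖T a - T b‖ ≤ ‖a - b‖) :
    ∃ x ∈ C, T x = x :=
  Vale.Agent.P079.exists_fixed_of_reflexive hX hne hcl hbd hcv hT hlip

end Vale.Agent.Results.P079.KirkReflexiveFPP
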